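import Mathlib

/-!
# Row 49 (helper12): almost periods by sampling (Croot–Sisask, with Hoeffding's inequality)
-/

set_option autoImplicit false
open Finset
open scoped BigOperators

namespace Crest.Agent.N49.Sa

/-- Hoeffding's inequality for samples from a finite set -/
theorem hoeff {α : Type*} {A : Finset α} (hA : A.Nonempty) {y : α → ℝ} (h1 : ∀ a, |y a| ≤ 1)
    (h0 : ∑ a ∈ A, y a = 0) (l : ℕ) {ε : ℝ} (hε : 0 ≤ ε) :
    (#{a ∈ Fintype.piFinset fun _ : Fin l => A | ε * l < |∑ i, y (a i)|} : ℝ) ≤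
      2 * Real.exp (-(ε ^ 2 / 2 * l)) * #A ^ l := by
  have mg : ∀ t : ℝ, ∑ a ∈ Fintype.piFinset fun _ : Fin l => A, Real.exp (t * ∑ i, y (a i)) ≤
      Real.exp (t ^ 2 / 2 * l) * #A ^ l := fun t => by
    simp only [mul_sum, Real.exp_sum]
    rw [← prod_univ_sum (fun _ : Fin l => A) fun _ a => Real.exp (t * y a), prod_const, card_univ,
      Fintype.card_fin, mul_comm _ (l : ℝ), Real.exp_nat_mul, ← mul_pow]
    refine pow_le_pow_left₀ (sum_nonneg fun _ _ => (Real.exp_pos _).le) ?_ _
    calc _ ≤ ∑ a ∈ A, (Real.cosh t + y a * Real.sinh t) := sum_le_sum fun a _ => by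
          rw [mul_comm]; exact Real.exp_mul_le_cosh_add_mul_sinh (h1 a) t
      _ = Real.cosh t * #A := by rw [sum_add_distrib, ← sum_mul, h0]; simp [mul_comm]
      _ ≤ _ := mul_le_mul_of_nonneg_right (Real.cosh_le_exp_half_sq t) (by positivity)
  have e : Real.exp (-(ε ^ 2 / 2 * l)) = Real.exp (-(ε ^ 2 * l)) * Real.exp (ε ^ 2 / 2 * l) := by
    rw [← Real.exp_add]; congr 1; ring
  calc _ = ∑ a ∈ Fintype.piFinset fun _ : Fin l => A,
        if ε * l < |∑ i, y (a i)| then (1 : ℝ) else 0 := by rw [sum_boole]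
    _ ≤ ∑ a ∈ Fintype.piFinset fun _ : Fin l => A, Real.exp (-(ε ^ 2 * l)) *
        (Real.exp (ε * ∑ i, y (a i)) + Real.exp (-ε * ∑ i, y (a i))) := sum_le_sum fun a _ => ?_
    _ ≤ Real.exp (-(ε ^ 2 * l)) * (Real.exp (ε ^ 2 / 2 * l) * #A ^ l +
        Real.exp ((-ε) ^ 2 / 2 * l) * #A ^ l) := by
      rw [← mul_sum, sum_add_distrib]
      exact mul_le_mul_of_nonneg_left (add_le_add (mg _) (mg _)) (Real.exp_pos _).le
    _ = _ := by rw [e, neg_sq]; ring
  split_ifs with c
  · rw [mul_add, ← Real.exp_add, ← Real.exp_add]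
    have p := Real.exp_pos (-(ε ^ 2 * l) + ε * ∑ i, y (a i))
    have q := Real.exp_pos (-(ε ^ 2 * l) + -ε * ∑ i, y (a i))
    rcases lt_abs.1 c with k | k
    · have := Real.one_le_exp (x := -(ε ^ 2 * l) + ε * ∑ i, y (a i)) (by nlinarith); linarith
    · have := Real.one_le_exp (x := -(ε ^ 2 * l) + -ε * ∑ i, y (a i)) (by nlinarith); linarith
  · positivity

variable {G : Type*} [AddCommGroup G] [Fintype G]

/-- the average of `f (z + a - b)` -/
noncomputable def T (A B : Finset G) (f : G → ℝ) (z : G) : ℝ := 𝔼 b ∈ B, 𝔼 a ∈ A, f (z - b + a)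

/-- many translates of a good sample are good -/
theorem exists_shift {l : ℕ} (D : Finset (Fin l → G)) [DecidableEq (Fin l → G)] :
    ∃ b : Fin l → G, (#D : ℝ) * Fintype.card G ≤
      #{t : G | (fun i => b i + t) ∈ D} * Fintype.card G ^ l := by
  have e : ∑ b : Fin l → G, (#{t : G | (fun i => b i + t) ∈ D} : ℝ) = #D * Fintype.card G := by
    simp only [card_filter, Nat.cast_sum]
    rw [sum_comm, ← card_univ, mul_comm, ← nsmul_eq_mul, ← sum_const]
    refine sum_congr rfl fun t _ => ?_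
    rw [← Nat.cast_sum, ← card_filter]
    congr 1
    exact card_bij (fun b _ i => b i + t) (fun b h => (mem_filter.1 h).2)
      (fun b _ c _ k => funext fun i => add_right_cancel (congrFun k i))
      fun c h => ⟨fun i => c i - t, by simpa using h, by simp⟩
  by_contra c
  push Not at c
  have := sum_lt_sum_of_nonempty (s := univ) univ_nonempty fun b _ => c b
  rw [← sum_mul, e, sum_const, card_univ, Fintype.card_fun, Fintype.card_fin, nsmul_eq_mul,
    Nat.cast_pow, mul_comm] at this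
  exact lt_irrefl _ this

/-- **almost periods** -/
theorem croot_sisask {A B : Finset G} (hA : A.Nonempty) (hB : B.Nonempty) {f : G → ℝ}
    (h0 : ∀ x, 0 ≤ f x) (h1 : ∀ x, f x ≤ 1) {l : ℕ} (hl : 0 < l) {ε : ℝ} (hε : 0 ≤ ε) :
    ∃ X : Finset G, (#A : ℝ) ^ l * Fintype.card G ≤ 2 * #X * Fintype.card G ^ l ∧
      ∀ s ∈ X, ∀ t ∈ X, ∀ z, |T A B f (z - s) - T A B f (z - t)| ≤
        2 * ε + 8 * Real.exp (-(ε ^ 2 / 2 * l)) * Fintype.card G / #B := by
  classical
  set δ := 2 * Real.exp (-(ε ^ 2 / 2 * l)) with hδ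
  have δ0 : 0 < δ := by positivity
  have a0 : (0 : ℝ) < #A := by exact_mod_cast hA.card_pos
  have b0 : (0 : ℝ) < #B := by exact_mod_cast hB.card_pos
  have g0 : (0 : ℝ) < Fintype.card G := by exact_mod_cast Fintype.card_pos
  have l0 : (0 : ℝ) < l := by exact_mod_cast hl
  set F : G → ℝ := fun x => 𝔼 a ∈ A, f (x + a) with hF
  have F0 : ∀ x, 0 ≤ F x := fun x => expect_nonneg fun _ _ => h0 _
  have F1 : ∀ x, F x ≤ 1 := fun x => expect_le hA fun _ _ => h1 _
  set P := Fintype.piFinset fun _ : Fin l => A with hP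
  set bad : (Fin l → G) → Finset G := fun a => {x | ε * l < |∑ i, (f (x + a i) - F x)|} with hbad
  have s1 : ∑ a ∈ P, (#(bad a) : ℝ) ≤ δ * #A ^ l * Fintype.card G := by
    simp only [hbad, card_filter, Nat.cast_sum]
    rw [sum_comm]
    refine (sum_le_card_nsmul (univ : Finset G) _ (δ * (#A : ℝ) ^ l) fun x _ => ?_).trans
      (by rw [card_univ, nsmul_eq_mul, mul_comm])
    rw [← Nat.cast_sum, ← card_filter]
    refine hoeff hA (y := fun a => f (x + a) - F x) (fun a => ?_) ?_ l hε
    · have := h0 (x + a); have := h1 (x + a); have := F0 x; have := F1 x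
      rw [abs_le]; constructor <;> linarith
    · rw [sum_sub_distrib, sum_const, hF, nsmul_eq_mul]
      simp only [expect_eq_sum_div_card]
      field_simp; ring
  set D := P.filter fun a => (#(bad a) : ℝ) ≤ 2 * δ * Fintype.card G with hD
  have s2 : (#A : ℝ) ^ l ≤ 2 * #D := by
    have c1 : (#(P.filter fun a => ¬(#(bad a) : ℝ) ≤ 2 * δ * Fintype.card G) : ℝ) *
        (2 * δ * Fintype.card G) ≤ ∑ a ∈ P, (#(bad a) : ℝ) := by
      rw [← nsmul_eq_mul]
      exact (card_nsmul_le_sum _ _ _ fun a h => (not_le.1 (mem_filter.1 h).2).le).trans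
        (sum_le_sum_of_subset_of_nonneg (filter_subset _ _) fun _ _ _ => by positivity)
    have c2 : (#D : ℝ) + #(P.filter fun a => ¬(#(bad a) : ℝ) ≤ 2 * δ * Fintype.card G) =
        #A ^ l := by
      rw [← Nat.cast_add, hD, card_filter_add_card_filter_not, hP, Fintype.card_piFinset]; simp
    have c3 : 2 * (#(P.filter fun a => ¬(#(bad a) : ℝ) ≤ 2 * δ * Fintype.card G) : ℝ) ≤ #A ^ l :=
      le_of_mul_le_mul_right (a := δ * Fintype.card G) (by linarith) (by positivity)
    linarith
  obtain ⟨b, hb⟩ := exists_shift D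
  refine ⟨({t : G | (fun i => b i + t) ∈ D} : Finset G), by nlinarith, fun s hs t ht z => ?_⟩
  have ks := (mem_filter.1 (mem_filter.1 hs).2).2
  have kt := (mem_filter.1 (mem_filter.1 ht).2).2
  set U := B.filter fun y => z - s - y ∈ bad (fun i => b i + s) ∨ z - t - y ∈ bad fun i => b i + t
    with hU
  have cU : (#U : ℝ) ≤ 4 * δ * Fintype.card G := by
    have q : ∀ w : G, ∀ W : Finset G, #(B.filter fun y => w - y ∈ W) ≤ #W := fun w W =>
      card_le_card_of_injOn (fun y => w - y) (fun y h => (mem_filter.1 h).2)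
        fun y _ y' _ k => sub_right_injective k
    have : (#U : ℝ) ≤ #(bad fun i => b i + s) + #(bad fun i => b i + t) := by
      rw [hU, filter_or]
      exact_mod_cast (card_union_le _ _).trans (add_le_add (q _ _) (q _ _))
    linarith
  have pt : ∀ y ∈ B, |F (z - s - y) - F (z - t - y)| ≤ 2 * ε + if y ∈ U then 1 else 0 := by
    intro y hy
    split_ifs with c
    · have := F0 (z - s - y); have := F1 (z - s - y); have := F0 (z - t - y); have := F1 (z - t - y)
      rw [abs_le]; constructor <;> linarith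
    · simp only [hU, hbad, mem_filter, hy, mem_univ, true_and, not_or, not_lt, sum_sub_distrib,
        sum_const, card_univ, Fintype.card_fin, nsmul_eq_mul] at c
      have e : ∀ w : G, ∑ i, f (z - w - y + (b i + w)) = ∑ i, f (z - y + b i) := fun w =>
        sum_congr rfl fun i _ => by congr 1; abel
      rw [e, e, abs_le, abs_le] at c
      rw [add_zero, abs_le]
      constructor <;> refine le_of_mul_le_mul_right ?_ l0 <;> linarith [c.1.1, c.1.2, c.2.1, c.2.2]
  change |𝔼 y ∈ B, F (z - s - y) - 𝔼 y ∈ B, F (z - t - y)| ≤ _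
  rw [← expect_sub_distrib]
  refine (abs_expect_le _ _).trans ((expect_le_expect pt).trans ?_)
  rw [expect_add_distrib, expect_const hB, expect_eq_sum_div_card, sum_boole,
    filter_mem_eq_inter, inter_eq_right.2 (filter_subset _ _)]
  refine add_le_add_right (div_le_div_of_nonneg_right (cU.trans_eq ?_) b0.le) _
  rw [hδ]; ring

end Crest.Agent.N49.Sa
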