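import Crest.Agent.N49.Sa.Chang
import Crest.Agent.N49.Sa.Cs

/-!
# Row 49 (helper12): Bohr sets of almost periods with quasi-polynomial bounds (Sanders)
-/

set_option autoImplicit false
open Finset
open scoped BigOperators ComplexConjugate

namespace Crest.Agent.N49.Sa

variable {G : Type*} [AddCommGroup G] [Fintype G]

/-- `c` are Fourier coefficients of `φ` -/
def Ex (φ : G → ℝ) (c : AddChar G ℂ → ℂ) : Prop := ∀ z, (φ z : ℂ) = ∑ γ, c γ * γ z

theorem ex_ft (f : G → ℝ) : Ex f fun γ => 𝔼 y, f y * conj (γ y) := fun z => by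
  classical
  simp only [expect_mul]
  rw [← expect_sum_comm]
  have e : ∀ y, ∑ γ : AddChar G ℂ, f y * conj (γ y) * γ z =
      if y = z then (f z : ℂ) * Fintype.card G else 0 := fun y => by
    simp only [mul_assoc, ← AddChar.map_neg_eq_conj, ← AddChar.map_add_eq_mul]
    rw [← mul_sum, AddChar.sum_apply_eq_ite]
    by_cases c : y = z
    · simp [c]
    · rw [if_neg c, if_neg fun k => c (neg_add_eq_zero.1 k), mul_zero]
  simp only [e]
  rw [expect_eq_sum_div_card, sum_ite_eq', if_pos (mem_univ _), card_univ, mul_div_assoc,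
    div_self (by exact_mod_cast Fintype.card_pos.ne'), mul_one]

theorem Ex.T {φ : G → ℝ} {c : AddChar G ℂ → ℂ} (h : Ex φ c) (A B : Finset G) :
    Ex (T A B φ) fun γ => c γ * (ft A γ * conj (ft B γ)) := fun z => by
  simp only [Sa.T, Complex.ofReal_expect, h _, expect_sum_comm, ft, map_expect]
  refine sum_congr rfl fun γ _ => ?_
  simp only [mul_expect, expect_mul]
  refine expect_congr rfl fun b _ => expect_congr rfl fun a _ => ?_
  rw [sub_eq_add_neg, AddChar.map_add_eq_mul, AddChar.map_add_eq_mul, AddChar.map_neg_eq_conj]; ring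

theorem parseval {A : Finset G} (hA : A.Nonempty) :
    ∑ γ, ‖ft A γ‖ ^ 2 = (Fintype.card G : ℝ) / #A := by
  classical
  have a0 : (#A : ℂ) ≠ 0 := by exact_mod_cast hA.card_pos.ne'
  apply Complex.ofReal_injective
  push_cast
  simp only [← Complex.mul_conj', ft, map_expect, mul_expect, expect_mul, ← expect_sum_comm,
    ← AddChar.map_neg_eq_conj, ← AddChar.map_add_eq_mul, AddChar.sum_apply_eq_ite, add_neg_eq_zero]
  rw [expect_congr rfl (g := fun _ => (Fintype.card G : ℂ) / #A) fun b hb => ?_, expect_const hA]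
  rw [expect_eq_sum_div_card, sum_ite_eq', if_pos hb]

omit [Fintype G] in
theorem T_near {X : Finset G} (hX : X.Nonempty) {Φ : G → ℝ} {η : ℝ}
    (h : ∀ s ∈ X, ∀ t ∈ X, ∀ z, |Φ (z - s) - Φ (z - t)| ≤ η) (k : ℕ) (z : G) :
    |(T X X)^[k] Φ z - Φ z| ≤ k * η := by
  induction k generalizing z with
  | zero => simp
  | succ k ih =>
    rw [Function.iterate_succ_apply', T, ← expect_const hX (Φ z), ← expect_sub_distrib]
    refine (abs_expect_le _ _).trans (expect_le hX fun b hb => ?_)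
    rw [← expect_const hX (Φ z), ← expect_sub_distrib]
    refine (abs_expect_le _ _).trans (expect_le hX fun a ha => ?_)
    have p := ih (z - b + a)
    have q := h b hb a ha (z + a)
    rw [add_sub_cancel_right, show z + a - b = z - b + a by abel] at q
    push_cast
    linarith [abs_sub_le ((T X X)^[k] Φ (z - b + a)) (Φ (z - b + a)) (Φ z)]

theorem Ex.iter {φ : G → ℝ} {c : AddChar G ℂ → ℂ} (h : Ex φ c) (X : Finset G) (k : ℕ) :
    Ex ((Sa.T X X)^[k] φ) fun γ => c γ * (‖ft X γ‖ ^ 2 : ℝ) ^ k := by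
  induction k with
  | zero => simpa using h
  | succ k ih =>
    rw [Function.iterate_succ_apply']
    convert ih.T X X using 2 with γ
    rw [Complex.mul_conj', pow_succ]; push_cast; ring

/-- from a set of almost periods to a Bohr set -/
theorem boot {A B X : Finset G} (hA : A.Nonempty) (hB : B.Nonempty) (hX : X.Nonempty) {f : G → ℝ}
    (h1 : ∀ x, |f x| ≤ 1) {η ρ M : ℝ} (mA : (Fintype.card G : ℝ) ≤ M * #A)
    (mB : (Fintype.card G : ℝ) ≤ M * #B)
    (h : ∀ s ∈ X, ∀ t ∈ X, ∀ z, |T A B f (z - s) - T A B f (z - t)| ≤ η) {k : ℕ}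
    (hk : 2 / 4 ^ k ≤ ρ) {b : G} (hb : ∀ γ, 1 / 2 ≤ ‖ft X γ‖ → ‖γ b - 1‖ ≤ ρ) (z : G) :
    |T A B f (z + b) - T A B f z| ≤ 2 * k * η + M * ρ := by
  have e := ((ex_ft f).T A B).iter X k
  have ρ0 : 0 ≤ ρ := le_trans (by positivity) hk
  have a0 : (0 : ℝ) < #A := by exact_mod_cast hA.card_pos
  have b0 : (0 : ℝ) < #B := by exact_mod_cast hB.card_pos
  have key : |(T X X)^[k] (T A B f) (z + b) - (T X X)^[k] (T A B f) z| ≤ M * ρ := by
    rw [← Real.norm_eq_abs, ← Complex.norm_real, Complex.ofReal_sub, e, e, ← sum_sub_distrib]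
    calc _ ≤ ∑ γ : AddChar G ℂ, (‖ft A γ‖ ^ 2 + ‖ft B γ‖ ^ 2) / 2 * ρ :=
          (norm_sum_le _ _).trans (sum_le_sum fun γ _ => ?_)
      _ = (Fintype.card G / #A + Fintype.card G / #B) / 2 * ρ := by
          rw [← sum_mul, ← sum_div, sum_add_distrib, parseval hA, parseval hB]
      _ ≤ M * ρ := by
          have := (div_le_iff₀ a0).2 mA; have := (div_le_iff₀ b0).2 mB
          exact mul_le_mul_of_nonneg_right (by linarith) ρ0
    rw [← mul_sub, AddChar.map_add_eq_mul, ← mul_sub_one, mul_assoc, norm_mul, norm_mul, norm_mul,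
      norm_mul, norm_mul, norm_char, one_mul, Complex.norm_conj, norm_pow, Complex.norm_real,
      Real.norm_eq_abs, abs_of_nonneg (sq_nonneg _)]
    have w : ‖𝔼 y, (f y : ℂ) * conj (γ y)‖ ≤ 1 :=
      (RCLike.norm_expect_le (K := ℂ)).trans (expect_le univ_nonempty fun y _ => by
        rw [norm_mul, Complex.norm_conj, norm_char, mul_one, Complex.norm_real]; exact h1 y)
    refine mul_le_mul ?_ ?_ (by positivity) (by positivity)
    · refine (mul_le_of_le_one_left (by positivity) w).trans ?_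
      nlinarith [sq_nonneg (‖ft A γ‖ - ‖ft B γ‖)]
    · by_cases c : 1 / 2 ≤ ‖ft X γ‖
      · exact (mul_le_of_le_one_left (norm_nonneg _) (pow_le_one₀ (sq_nonneg _)
          (pow_le_one₀ (norm_nonneg _) (norm_ft_le _ _)))).trans (hb γ c)
      · have u : ‖γ b - 1‖ ≤ 2 := (norm_sub_le _ _).trans (by rw [norm_char, norm_one]; norm_num)
        have v : (‖ft X γ‖ ^ 2) ^ k ≤ (1 / 4) ^ k :=
          pow_le_pow_left₀ (sq_nonneg _) (by nlinarith [norm_nonneg (ft X γ)]) _
        refine (mul_le_mul v u (norm_nonneg _) (by positivity)).trans (le_trans (le_of_eq ?_) hk)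
        rw [one_div, inv_pow]; ring
  have p := T_near hX h k (z + b)
  have q := T_near hX h k z
  rw [abs_le] at *
  constructor <;> linarith [p.1, p.2, q.1, q.2, key.1, key.2]

/-- **almost periodicity on a Bohr set of small rank** -/
theorem almost_period {A B : Finset G} {f : G → ℝ} (h0 : ∀ x, 0 ≤ f x) (h1 : ∀ x, f x ≤ 1) {m : ℕ}
    (hA : Fintype.card G ≤ 2 ^ m * #A) (hB : Fintype.card G ≤ 2 ^ m * #B) (j : ℕ) :
    ∃ Λ : Finset (AddChar G ℂ), #Λ ≤ 2 ^ 14 * (m + j + 3) ^ 4 * 4 ^ j ∧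
      ∀ b, ∑ γ ∈ Λ, ‖γ b - 1‖ ≤ 1 / 2 ^ (m + j + 1) →
        ∀ z, |T A B f (z + b) - T A B f z| ≤ 1 / 2 ^ j := by
  have g0 : 0 < Fintype.card G := Fintype.card_pos
  have nA : A.Nonempty := card_pos.1 (Nat.pos_of_mul_pos_left (g0.trans_le hA))
  have nB : B.Nonempty := card_pos.1 (Nat.pos_of_mul_pos_left (g0.trans_le hB))
  have rA : (Fintype.card G : ℝ) ≤ 2 ^ m * #A := by exact_mod_cast hA
  have rB : (Fintype.card G : ℝ) ≤ 2 ^ m * #B := by exact_mod_cast hB
  have g1 : (0 : ℝ) < Fintype.card G := by exact_mod_cast g0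
  have b0 : (0 : ℝ) < #B := by exact_mod_cast nB.card_pos
  obtain ⟨q, hq⟩ : ∃ q, q = m + j + 3 := ⟨_, rfl⟩
  have q0 : (0 : ℝ) < q := by exact_mod_cast (by omega : 0 < q)
  obtain ⟨l, hl⟩ : ∃ l, l = 1536 * q ^ 3 * 4 ^ j := ⟨_, rfl⟩
  have l0 : 0 < l := by rw [hl, hq]; positivity
  obtain ⟨X, hX, h⟩ := croot_sisask nA nB h0 h1 l0 (ε := 1 / (16 * q * 2 ^ j)) (by positivity)
  have e2 : (2 : ℝ) ≤ Real.exp 1 := by linarith [Real.add_one_le_exp 1]
  have hL : (Fintype.card G : ℝ) ≤ Real.exp (m * l + 1 : ℕ) * #X := by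
    have a : (Fintype.card G : ℝ) ^ l ≤ 2 ^ (m * l) * #A ^ l := by
      rw [pow_mul, ← mul_pow]; exact pow_le_pow_left₀ g1.le rA _
    have b : (2 : ℝ) ^ (m * l + 1) ≤ Real.exp (m * l + 1 : ℕ) := by
      rw [← mul_one ((m * l + 1 : ℕ) : ℝ), Real.exp_nat_mul]
      exact pow_le_pow_left₀ zero_le_two e2 _
    refine le_trans (le_of_mul_le_mul_right ?_ (pow_pos g1 l))
      (mul_le_mul_of_nonneg_right b (by positivity))
    have c := mul_le_mul_of_nonneg_left hX (by positivity : (0 : ℝ) ≤ 2 ^ (m * l))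
    have d := mul_le_mul_of_nonneg_left a g1.le
    rw [pow_succ]; linarith
  have nX : X.Nonempty := by
    rcases X.eq_empty_or_nonempty with rfl | k
    · simp at hL
    · exact k
  obtain ⟨Λ, c1, -, c2⟩ := chang hL (η := 1 / 2) (by norm_num)
  refine ⟨Λ, ?_, fun b hb z => ?_⟩
  · have a : (#Λ : ℝ) ≤ (8 * (m * l + 1) : ℕ) := by push_cast at c1 ⊢; linarith
    have b : m * l ≤ q * l := Nat.mul_le_mul_right _ (by omega)
    have c : 1 ≤ q ^ 4 * 4 ^ j := by rw [hq]; exact Nat.succ_le_of_lt (by positivity)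
    have d : q * l = 1536 * (q ^ 4 * 4 ^ j) := by rw [hl]; ring
    have := Nat.cast_le.1 a
    rw [← hq, mul_assoc]; omega
  have f1 : ∀ x, |f x| ≤ 1 := fun x => abs_le.2 ⟨by linarith [h0 x], h1 x⟩
  refine (boot nA nB nX f1 rA rB h (k := q) (ρ := 1 / 2 ^ (m + j + 1)) ?_
    (fun γ c => (c2 γ c b).trans hb) z).trans ?_
  · rw [div_le_div_iff₀ (by positivity) (by positivity), one_mul, ← pow_succ',
      show (4 : ℝ) = 2 ^ 2 by norm_num, ← pow_mul]
    exact pow_le_pow_right₀ one_le_two (by omega)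
  have e : (1 / (16 * (q : ℝ) * 2 ^ j)) ^ 2 / 2 * l = 3 * q := by
    rw [hl, show (4 : ℕ) = 2 * 2 by norm_num, mul_pow]; push_cast; field_simp; norm_num
  have x1 : q * (2 : ℝ) ^ (2 * q) ≤ Real.exp (3 * q) := by
    have a : (2 : ℝ) ^ (2 * q) ≤ Real.exp (2 * q : ℕ) := by
      rw [← mul_one ((2 * q : ℕ) : ℝ), Real.exp_nat_mul]; exact pow_le_pow_left₀ zero_le_two e2 _
    rw [show (3 : ℝ) * q = q + (2 * q : ℕ) by push_cast; ring, Real.exp_add]
    exact mul_le_mul (by linarith [Real.add_one_le_exp (q : ℝ)]) a (by positivity) (by positivity)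
  have x2 : (2 : ℝ) ^ m * 2 ^ j * 64 ≤ 2 ^ (2 * q) := by
    rw [← pow_add, show (64 : ℝ) = 2 ^ 6 by norm_num, ← pow_add]
    exact pow_le_pow_right₀ one_le_two (by omega)
  have x3 : 8 * Real.exp (-(3 * q)) * Fintype.card G / #B ≤ 1 / (8 * q * 2 ^ j) := by
    rw [Real.exp_neg, div_le_div_iff₀ b0 (by positivity), ← sub_nonneg]
    have E := Real.exp_pos (3 * q)
    have : 1 * (#B : ℝ) - 8 * (Real.exp (3 * q))⁻¹ * Fintype.card G * (8 * q * 2 ^ j) =
        (Real.exp (3 * q) * #B - 64 * q * 2 ^ j * Fintype.card G) / Real.exp (3 * q) := by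
      field_simp; ring
    rw [this]
    refine div_nonneg (sub_nonneg.2 ?_) E.le
    calc _ ≤ 64 * (q : ℝ) * 2 ^ j * (2 ^ m * #B) := mul_le_mul_of_nonneg_left rB (by positivity)
      _ = q * (2 ^ m * 2 ^ j * 64) * #B := by ring
      _ ≤ _ := mul_le_mul_of_nonneg_right ((mul_le_mul_of_nonneg_left x2 q0.le).trans x1) b0.le
  rw [e]
  calc _ ≤ 2 * (q : ℝ) * (2 * (1 / (16 * q * 2 ^ j)) + 1 / (8 * q * 2 ^ j)) +
        2 ^ m * (1 / 2 ^ (m + j + 1)) := by gcongr
    _ = _ := by field_simp; ring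

end Crest.Agent.N49.Sa
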