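import Crest.Agent.N49.Sa.Ap

/-!
# Row 49 (helper12): the robust Bogolyubov–Sanders lemma
-/

set_option autoImplicit false
open Finset
open scoped BigOperators

namespace Crest.Agent.N49.Sa

/-- the representations `b = a₁ - a₂ + a₃ - a₄` -/
def reps {H : Type*} [AddCommGroup H] [DecidableEq H] (A : Finset H) (b : H) :
    Finset ((H × H) × H × H) :=
  ((A ×ˢ A) ×ˢ A ×ˢ A).filter fun p => p.1.1 - p.1.2 + p.2.1 - p.2.2 = b

theorem mem_reps {H : Type*} [AddCommGroup H] [DecidableEq H] {A : Finset H} {b : H}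
    {p : (H × H) × H × H} : p ∈ reps A b ↔ (p.1.1 ∈ A ∧ p.1.2 ∈ A ∧ p.2.1 ∈ A ∧ p.2.2 ∈ A) ∧
      p.1.1 - p.1.2 + p.2.1 - p.2.2 = b := by
  simp [reps, and_assoc]

variable {G : Type*} [AddCommGroup G] [Fintype G] [DecidableEq G]

omit [Fintype G] in
theorem T_ind (A S : Finset G) (z : G) : T A A (fun x => if x ∈ S then 1 else 0) z =
    #{p ∈ A ×ˢ A | z - p.1 + p.2 ∈ S} / (#A : ℝ) ^ 2 := by
  rw [T, ← expect_product' A A fun b a => if z - b + a ∈ S then (1 : ℝ) else 0,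
    expect_eq_sum_div_card, sum_boole, card_product, Nat.cast_mul, sq]

/-- **Bogolyubov–Sanders** -/
theorem bogolyubov {A : Finset G} {m : ℕ} (hA : Fintype.card G ≤ 2 ^ m * #A) :
    ∃ Λ : Finset (AddChar G ℂ), #Λ ≤ 2 ^ 16 * (m + 4) ^ 4 ∧
      ∀ b, ∑ γ ∈ Λ, ‖γ b - 1‖ ≤ 1 / 2 ^ (m + 2) → #A ^ 3 ≤ 2 ^ (m + 4) * #(reps A b) := by
  set r : G → ℕ := fun d => #{p ∈ A ×ˢ A | p.1 - p.2 = d} with hr
  set S : Finset G := {d | #A ≤ 2 ^ (m + 2) * r d} with hS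
  obtain ⟨Λ, h1, h2⟩ := almost_period (f := fun x => if x ∈ S then 1 else 0)
    (fun x => by positivity) (fun x => by split_ifs <;> norm_num) hA hA 1
  refine ⟨Λ, h1.trans_eq (by ring), fun b hb => ?_⟩
  have a0 : 0 < #A := Nat.pos_of_mul_pos_left (Fintype.card_pos.trans_le hA)
  have a1 : (0 : ℝ) < (#A : ℝ) ^ 2 := by positivity
  have k := h2 b hb 0
  rw [zero_add, T_ind, T_ind, ← sub_div, abs_div, abs_of_pos a1, div_le_iff₀ a1, abs_le] at k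
  have c1 : 4 * #{p ∈ A ×ˢ A | ¬0 - p.1 + p.2 ∈ S} ≤ #A ^ 2 := by
    have e : #{p ∈ A ×ˢ A | ¬0 - p.1 + p.2 ∈ S} ≤ ∑ d ∈ Sᶜ, r d := by
      rw [card_eq_sum_card_fiberwise (f := fun p : G × G => p.2 - p.1) (t := Sᶜ) fun p h => by
        have := (mem_filter.1 h).2
        rw [zero_sub, neg_add_eq_sub] at this
        simpa using this]
      refine sum_le_sum fun d _ => card_le_card_of_injOn Prod.swap (fun p h => ?_)
        Prod.swap_injective.injOn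
      simp only [coe_filter, mem_filter, mem_product, Set.mem_ofPred_eq] at h ⊢
      exact ⟨⟨h.1.1.2, h.1.1.1⟩, h.2⟩
    have e2 : 2 ^ (m + 2) * ∑ d ∈ Sᶜ, r d ≤ Fintype.card G * #A := by
      rw [mul_sum]
      refine (sum_le_card_nsmul _ _ #A fun d h => ?_).trans
        (Nat.mul_le_mul_right _ (card_le_univ _))
      exact (not_le.1 (by simpa [hS] using h)).le
    refine Nat.le_of_mul_le_mul_left ?_ (pow_pos two_pos m)
    have := Nat.mul_le_mul_right #A hA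
    have := Nat.mul_le_mul_left (2 ^ (m + 2)) e
    rw [pow_add] at *
    nlinarith
  have c2 := card_filter_add_card_filter_not (s := A ×ˢ A) fun p => 0 - p.1 + p.2 ∈ S
  rw [card_product, ← sq] at c2
  have c3 : #A ^ 2 ≤ 4 * #{p ∈ A ×ˢ A | b - p.1 + p.2 ∈ S} := by
    have x : (4 : ℝ) * #{p ∈ A ×ˢ A | ¬0 - p.1 + p.2 ∈ S} ≤ #A ^ 2 := by exact_mod_cast c1
    have y : (#{p ∈ A ×ˢ A | 0 - p.1 + p.2 ∈ S} : ℝ) + #{p ∈ A ×ˢ A | ¬0 - p.1 + p.2 ∈ S} =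
      #A ^ 2 := by exact_mod_cast c2
    have : (#A : ℝ) ^ 2 ≤ 4 * #{p ∈ A ×ˢ A | b - p.1 + p.2 ∈ S} := by linarith [k.1]
    exact_mod_cast this
  have c4 : #{p ∈ A ×ˢ A | b - p.1 + p.2 ∈ S} * #A ≤ 2 ^ (m + 2) * #(reps A b) := by
    calc _ = ∑ p ∈ (A ×ˢ A).filter fun p => b - p.1 + p.2 ∈ S, #A := by simp
      _ ≤ ∑ p ∈ (A ×ˢ A).filter fun p => b - p.1 + p.2 ∈ S, 2 ^ (m + 2) * r (b - p.1 + p.2) :=
        sum_le_sum fun p h => by simpa [hS] using (mem_filter.1 h).2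
      _ ≤ 2 ^ (m + 2) * ∑ p ∈ A ×ˢ A, r (b - p.1 + p.2) := by
        rw [← mul_sum]; exact Nat.mul_le_mul_left _ (sum_le_sum_of_subset (filter_subset _ _))
      _ ≤ _ := Nat.mul_le_mul_left _ ?_
    rw [card_eq_sum_card_fiberwise (s := reps A b) (f := Prod.fst) (t := A ×ˢ A) fun p h => by
      have := (mem_reps.1 h).1; simp [this]]
    refine sum_le_sum fun p hp => card_le_card_of_injOn (fun q => (p, q)) (fun q h => ?_)
      fun _ _ _ _ e => (Prod.ext_iff.1 e).2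
    simp only [coe_filter, mem_product, Set.mem_ofPred_eq, mem_reps] at h hp ⊢
    refine ⟨⟨⟨hp.1, hp.2, h.1.1, h.1.2⟩, ?_⟩, trivial⟩
    rw [add_sub_assoc, h.2]; abel
  have := Nat.mul_le_mul_right #A c3
  calc #A ^ 3 = #A ^ 2 * #A := pow_succ _ _
    _ ≤ 4 * (2 ^ (m + 2) * #(reps A b)) := by rw [mul_assoc] at this; omega
    _ = _ := by ring

theorem norm_zmod (M : ℕ) [NeZero M] (r : ZMod M) (b : ℤ) :
    ‖AddChar.zmodAddEquiv r (b : ZMod M) - 1‖ ≤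
      8 * |(r.val : ℝ) / M * b - round ((r.val : ℝ) / M * b)| := by
  set x : ℝ := (r.val : ℝ) / M * b with hx
  have e : AddChar.zmodAddEquiv r (b : ZMod M) =
      Complex.exp (Complex.I * (2 * Real.pi * (x - round x) : ℝ)) := by
    have := AddChar.zmod_intCast M (r.val : ℤ) b
    rw [Int.cast_natCast, ZMod.natCast_zmod_val] at this
    change ((AddChar.zmod M r b : Circle) : ℂ) = _
    rw [this, Circle.coe_exp, Complex.exp_eq_exp_iff_exists_int]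
    exact ⟨round x, by rw [hx]; push_cast; ring⟩
  rw [e]
  refine Real.norm_exp_I_mul_ofReal_sub_one_le.trans ?_
  rw [Real.norm_eq_abs, abs_mul, abs_of_pos Real.two_pi_pos]
  exact mul_le_mul_of_nonneg_right (by linarith [Real.pi_le_four]) (abs_nonneg _)

/-- **Bogolyubov–Sanders in an interval of integers** -/
theorem bog_int' {N m : ℕ} (hN : 0 < N) {A : Finset ℤ} (hA : A ⊆ Ico (0 : ℤ) N)
    (h : N ≤ 2 ^ m * #A) : ∃ Γ : Finset ℝ, #Γ ≤ 2 ^ 16 * (m + 6) ^ 4 ∧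
      (∀ g ∈ Γ, ∃ r < 4 * N, g = (r : ℕ) / (4 * N : ℕ)) ∧ ∀ b : ℤ, |b| ≤ N →
      (∀ g ∈ Γ, |g * b - round (g * b)| ≤ 1 / (2 ^ (m + 23) * (m + 6) ^ 4)) →
        #A ^ 3 ≤ 2 ^ (m + 6) * #(reps A b) := by
  have : NeZero (4 * N) := ⟨by omega⟩
  have cg : ∀ x y : ℤ, (x : ZMod (4 * N)) = y → |x - y| < 4 * N → x = y := fun x y e k =>
    sub_eq_zero.1 (Int.eq_zero_of_abs_lt_dvd ((ZMod.intCast_eq_intCast_iff_dvd_sub _ _ _).1 e.symm)
      (by exact_mod_cast k))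
  have inj : Set.InjOn (fun x : ℤ => (x : ZMod (4 * N))) A := fun x a y b e => cg x y e (by
    have := mem_Ico.1 (hA a); have := mem_Ico.1 (hA b); rw [abs_lt]; omega)
  have cA := card_image_of_injOn inj
  obtain ⟨Λ, h1, h2⟩ := bogolyubov (A := A.image fun x : ℤ => (x : ZMod (4 * N))) (m := m + 2)
    (by rw [ZMod.card, cA, pow_add]; nlinarith)
  refine ⟨Λ.image fun γ => ((AddChar.zmodAddEquiv.symm γ).val : ℝ) / (4 * N : ℕ),
    card_image_le.trans h1, fun g k => ?_, fun b hb hg => ?_⟩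
  · obtain ⟨γ, -, rfl⟩ := mem_image.1 k
    exact ⟨_, ZMod.val_lt _, rfl⟩
  have := h2 (b : ZMod (4 * N)) ?_
  · rw [cA] at this
    refine this.trans (Nat.mul_le_mul_left _ (card_le_card_of_surjOn
      (Prod.map (Prod.map Int.cast Int.cast) (Prod.map Int.cast Int.cast)) fun p hp => ?_))
    obtain ⟨⟨x1, x2⟩, x3, x4⟩ := p
    simp only [mem_coe, mem_reps, mem_image] at hp
    obtain ⟨⟨⟨a1, k1, rfl⟩, ⟨a2, k2, rfl⟩, ⟨a3, k3, rfl⟩, a4, k4, rfl⟩, e⟩ := hp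
    refine ⟨((a1, a2), a3, a4), mem_coe.2 (mem_reps.2 ⟨⟨k1, k2, k3, k4⟩, cg _ _ ?_ ?_⟩), rfl⟩
    · push_cast; exact e
    · have := mem_Ico.1 (hA k1); have := mem_Ico.1 (hA k2); have := mem_Ico.1 (hA k3)
      have := mem_Ico.1 (hA k4); rw [abs_le] at hb; rw [abs_lt]; dsimp only; omega
  · refine (sum_le_card_nsmul _ _ (8 * (1 / (2 ^ (m + 23) * (m + 6) ^ 4)) : ℝ) fun γ c => ?_).trans ?_
    · have := norm_zmod (4 * N) (AddChar.zmodAddEquiv.symm γ) b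
      rw [AddEquiv.apply_symm_apply] at this
      exact this.trans (mul_le_mul_of_nonneg_left (hg _ (mem_image_of_mem _ c)) (by norm_num))
    · have : (#Λ : ℝ) ≤ 2 ^ 16 * (m + 6) ^ 4 := by exact_mod_cast h1
      rw [nsmul_eq_mul]
      refine (mul_le_mul_of_nonneg_right this (by positivity)).trans_eq ?_
      field_simp; ring

theorem bog_int {N m : ℕ} (hN : 0 < N) {A : Finset ℤ} (hA : A ⊆ Ico (0 : ℤ) N)
    (h : N ≤ 2 ^ m * #A) : ∃ Γ : Finset ℝ, #Γ ≤ 2 ^ 16 * (m + 6) ^ 4 ∧ ∀ b : ℤ, |b| ≤ N →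
      (∀ g ∈ Γ, |g * b - round (g * b)| ≤ 1 / (2 ^ (m + 23) * (m + 6) ^ 4)) →
        #A ^ 3 ≤ 2 ^ (m + 6) * #(reps A b) :=
  let ⟨Γ, a, _, b⟩ := bog_int' hN hA h
  ⟨Γ, a, b⟩

end Crest.Agent.N49.Sa
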