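import Mathlib

/-!
# Row 49 (helper12): Chang's lemma on finite abelian groups
-/

set_option autoImplicit false
open Finset
open scoped BigOperators ComplexConjugate

namespace Crest.Agent.N49.Sa

variable {G : Type*} [AddCommGroup G] [Fintype G]

/-- the mean of a character on a set -/
noncomputable def ft (X : Finset G) (γ : AddChar G ℂ) : ℂ := 𝔼 x ∈ X, γ x

omit [Fintype G] in
theorem norm_char [Finite G] (γ : AddChar G ℂ) (x : G) : ‖γ x‖ = 1 := γ.norm_apply x

theorem norm_ft_le (X : Finset G) (γ : AddChar G ℂ) : ‖ft X γ‖ ≤ 1 := by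
  rcases X.eq_empty_or_nonempty with rfl | h
  · simp [ft]
  · exact (RCLike.norm_expect_le (K := ℂ)).trans (expect_le h fun x _ => (norm_char γ x).le)

/-- Rudin's inequality in exponential form -/
theorem rudin {Λ : Finset (AddChar G ℂ)} (hΛ : AddDissociated (Λ : Set (AddChar G ℂ)))
    (ω : AddChar G ℂ → ℂ) (hω : ∀ γ, ‖ω γ‖ ≤ 1) (η : ℝ) :
    𝔼 x, Real.exp (η * ∑ γ ∈ Λ, (ω γ * γ x).re) ≤ Real.exp (η ^ 2 / 2 * #Λ) := by
  classical
  have key := AddDissociated.randomisation (fun γ => if γ ∈ Λ then Real.cosh η else 1)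
    (fun γ => if γ ∈ Λ then Real.sinh η * ω γ else 0)
    (hΛ.subset fun γ h => by by_contra c; exact h (if_neg c))
  calc _ ≤ 𝔼 x, ∏ γ : AddChar G ℂ, ((if γ ∈ Λ then Real.cosh η else 1) +
        ((if γ ∈ Λ then Real.sinh η * ω γ else 0) * γ x).re) := expect_le_expect fun x _ => ?_
    _ = Real.cosh η ^ #Λ := by rw [key]; simp
    _ ≤ Real.exp (η ^ 2 / 2) ^ #Λ :=
      pow_le_pow_left₀ (Real.cosh_pos η).le (Real.cosh_le_exp_half_sq η) _
    _ = _ := by rw [← Real.exp_nat_mul, mul_comm]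
  rw [mul_sum, Real.exp_sum, ← prod_subset (subset_univ Λ) fun γ _ c => by simp [c]]
  refine prod_le_prod (fun _ _ => (Real.exp_pos _).le) fun γ c => ?_
  rw [if_pos c, if_pos c, mul_assoc, Complex.re_ofReal_mul, mul_comm η, mul_comm (Real.sinh η)]
  refine Real.exp_mul_le_cosh_add_mul_sinh ((Complex.abs_re_le_norm _).trans ?_) η
  rw [norm_mul, norm_char, mul_one]; exact hω γ

theorem card_diss {X : Finset G} {L η : ℝ} (hX : (Fintype.card G : ℝ) ≤ Real.exp L * #X)
    (hη : 0 ≤ η) {Λ : Finset (AddChar G ℂ)} (hΛ : AddDissociated (Λ : Set (AddChar G ℂ)))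
    (h : ∀ γ ∈ Λ, η ≤ ‖ft X γ‖) : η ^ 2 * #Λ ≤ 2 * L := by
  have g0 : (0 : ℝ) < Fintype.card G := by exact_mod_cast Fintype.card_pos
  have x0 : (0 : ℝ) < #X := by
    by_contra c
    have := mul_nonpos_of_nonneg_of_nonpos (Real.exp_pos L).le (not_lt.1 c)
    linarith
  have ne : X.Nonempty := card_pos.1 (by exact_mod_cast x0)
  choose ω h1 h2 using fun γ => Complex.exists_norm_eq_mul_self (ft X γ)
  set u : G → ℝ := fun x => η * ∑ γ ∈ Λ, (ω γ * γ x).re with hu
  have a : η ^ 2 * #Λ ≤ 𝔼 x ∈ X, u x := by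
    rw [hu, ← mul_expect, expect_sum_comm, sq, mul_assoc]
    refine mul_le_mul_of_nonneg_left ?_ hη
    rw [mul_comm, ← nsmul_eq_mul]
    refine card_nsmul_le_sum _ _ _ fun γ c => (h γ c).trans_eq ?_
    rw [← Complex.re_expect, ← mul_expect]
    change _ = (ω γ * ft X γ).re
    rw [← h2, Complex.ofReal_re]
  have b : Real.exp (𝔼 x ∈ X, u x) ≤ 𝔼 x ∈ X, Real.exp (u x) := by
    set c := 𝔼 x ∈ X, u x with hc
    calc _ = 𝔼 x ∈ X, Real.exp c * (u x - c + 1) := by
          rw [← mul_expect, expect_add_distrib, expect_sub_distrib, expect_const ne, expect_const ne,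
            ← hc]; ring
      _ ≤ _ := expect_le_expect fun x _ => by
          have := mul_le_mul_of_nonneg_left (Real.add_one_le_exp (u x - c)) (Real.exp_pos c).le
          rwa [← Real.exp_add, add_sub_cancel] at this
  have c : 𝔼 x ∈ X, Real.exp (u x) ≤ Real.exp L * 𝔼 x, Real.exp (u x) := by
    rw [expect_eq_sum_div_card, expect_eq_sum_div_card, card_univ, ← mul_div_assoc,
      div_le_div_iff₀ x0 g0, mul_right_comm, mul_comm]
    exact mul_le_mul hX (sum_le_sum_of_subset_of_nonneg (subset_univ X)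
      fun _ _ _ => (Real.exp_pos _).le) (sum_nonneg fun _ _ => (Real.exp_pos _).le) (by positivity)
  have d := mul_le_mul_of_nonneg_left (rudin hΛ ω (fun γ => (h1 γ).le) η) (Real.exp_pos L).le
  rw [← Real.exp_add] at d
  have := Real.exp_le_exp.1 (b.trans (c.trans d))
  linarith

theorem norm_span [DecidableEq (AddChar G ℂ)] {Λ : Finset (AddChar G ℂ)} {γ : AddChar G ℂ}
    (h : γ ∈ Λ.addSpan) (b : G) : ‖γ b - 1‖ ≤ ∑ ψ ∈ Λ, ‖ψ b - 1‖ := by
  obtain ⟨ε, hε, rfl⟩ := mem_addSpan.1 h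
  clear h
  induction Λ using Finset.induction_on with
  | empty => simp
  | insert ψ Λ n ih =>
    rw [sum_insert n, sum_insert n, AddChar.add_apply]
    have e : ∀ u v : ℂ, u * v - 1 = (u - 1) * v + (v - 1) := fun u v => by ring
    rw [e]
    refine (norm_add_le _ _).trans (add_le_add ?_ ih)
    rw [norm_mul, norm_char, mul_one]
    rcases hε ψ with k | k | k <;> rw [k]
    · rw [neg_one_zsmul, AddChar.neg_apply, AddChar.map_neg_eq_conj, ← Complex.norm_conj, map_sub,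
        Complex.conj_conj, map_one]
    · simp
    · simp

/-- **Chang's lemma** -/
theorem chang {X : Finset G} {L η : ℝ} (hX : (Fintype.card G : ℝ) ≤ Real.exp L * #X) (hη : 0 < η) :
    ∃ Λ : Finset (AddChar G ℂ), η ^ 2 * #Λ ≤ 2 * L ∧ (∀ γ ∈ Λ, η ≤ ‖ft X γ‖) ∧
      ∀ γ, η ≤ ‖ft X γ‖ → ∀ b, ‖γ b - 1‖ ≤ ∑ ψ ∈ Λ, ‖ψ b - 1‖ := by
  classical
  have L0 : 0 ≤ 2 * L := by simpa using card_diss hX hη.le (Λ := ∅) (by simp) (by simp)
  obtain ⟨Λ, h1, h2, h3⟩ := exists_subset_addSpan_card_le_of_forall_addDissociated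
    (s := univ.filter fun γ : AddChar G ℂ => η ≤ ‖ft X γ‖) (d := ⌊2 * L / η ^ 2⌋₊) fun Λ s d =>
      Nat.le_floor (by
        rw [le_div_iff₀ (by positivity), mul_comm]
        exact card_diss hX hη.le d fun γ c => (mem_filter.1 (s c)).2)
  refine ⟨Λ, ?_, fun γ c => (mem_filter.1 (h1 c)).2, fun γ c b => norm_span (h3 (by simp [c])) b⟩
  rw [mul_comm, ← le_div_iff₀ (by positivity)]
  exact le_trans (by exact_mod_cast h2) (Nat.floor_le (by positivity))

end Crest.Agent.N49.Sa
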